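import Vale.Agent.P141.H505.Node
import Vale.Agent.P141.PL.H588.En

/-!
# P141, line (A): own energy of a moving stack, one step

`F (x, y)`: `x` outer variable with `L` label digits (outer cells of scale `L + p`), `y` the
middle variable (cells of scale `q`).  Energy of all levels `SG μ J` (505).  `p` and `q` are
independent: `SE_x` splits `x` (static), `SE_y` splits `y` and moves the stack on the two halves.
-/

namespace Vale.Agent.P141.H435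

open Finset Matrix Vale.Agent.P075 Vale.Agent.P141.PL Vale.Agent.P141.PL.H588 Vale.Agent.P141.H505

noncomputable section

/-! ### cells -/

theorem sum_iv_iv {a N : ℕ} (h : a ≤ N) (R : ℤ) (f : ℤ → ℝ) :
    ∑ n ∈ iv (N - a) R, ∑ x ∈ iv a n, f x = ∑ x ∈ iv N R, f x := by
  classical
  have hm : ∀ x ∈ iv N R, ix a x ∈ iv (N - a) R := by
    intro x hx
    rw [mem_iv] at hx ⊢
    rw [ix_ix, Nat.add_sub_cancel' h, hx]
  rw [← sum_fiberwise_of_maps_to hm]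
  refine sum_congr rfl fun n hn => sum_congr ?_ fun _ _ => rfl
  ext x
  rw [mem_filter, mem_iv, mem_iv]
  rw [mem_iv] at hn
  constructor
  · intro hx
    refine ⟨?_, hx⟩
    rw [← hn, ← hx, ix_ix, Nat.add_sub_cancel' h]
  · exact fun hx => hx.2

/-- the function with exchanged variables -/
def sw (F : ℤ → ℤ → ℝ) : ℤ → ℤ → ℝ := fun y x => F x y

/-- outer Gram matrix of the cell `(n, m)` -/
def Yo (a b : ℕ) (F : ℤ → ℤ → ℝ) (n m : ℤ) : Matrix (Ix a) (Ix a) ℝ := Xg b a (sw F) m n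

theorem Yo_psd (a b : ℕ) (F : ℤ → ℤ → ℝ) (n m : ℤ) : (Yo a b F n m).PosSemidef := Xg_psd ..

theorem Yo_split (a b : ℕ) (F : ℤ → ℤ → ℝ) (n m : ℤ) :
    Yo a (b + 1) F n m = (1 / 2 : ℝ) • (Yo a b F n (2 * m) + Yo a b F n (2 * m + 1)) :=
  Xg_row b a (sw F) m n

theorem Yo_eq (a b : ℕ) (F : ℤ → ℤ → ℝ) (n m : ℤ) :
    Yo a b F n m = ((2 : ℝ) ^ a * 2 ^ b)⁻¹ •
      (smp a b F (2 ^ a * n) (2 ^ b * m) * (smp a b F (2 ^ a * n) (2 ^ b * m))ᵀ) := by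
  rw [Yo, Xg, mul_comm ((2 : ℝ) ^ b)]
  rfl

/-- inner and outer Gram matrices have the same energy -/
theorem GX_gram {p q : Type*} [Fintype p] [DecidableEq p] [Fintype q] [DecidableEq q] (c : ℝ)
    (C : Matrix p q ℝ) : GX (c • (Cᵀ * C)) = GX (c • (C * Cᵀ)) := by
  have h1 : (c • (Cᵀ * C)).trace = (c • (C * Cᵀ)).trace := by
    rw [trace_smul, trace_smul, trace_mul_comm]
  have h2 : (1 + c • (Cᵀ * C)).det = (1 + c • (C * Cᵀ)).det := by
    rw [← Matrix.mul_smul, ← Matrix.smul_mul]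
    exact det_one_add_mul_comm _ _
  rw [GX, GX, ld, ld, h1, h2]

theorem GX_Yo (μ : ℝ) (a b : ℕ) (F : ℤ → ℤ → ℝ) (n m : ℤ) :
    GX (μ • Xg a b F n m) = GX (μ • Yo a b F n m) := by
  rw [Yo_eq, Xg, smul_smul, smul_smul]
  exact GX_gram _ _

theorem SG_Yo (μ : ℝ) (J : ℕ) (a b : ℕ) (F : ℤ → ℤ → ℝ) (n m : ℤ) :
    SG μ J (Xg a b F n m) = SG μ J (Yo a b F n m) := by
  unfold SG
  simp only [GX_Yo]

/-! ### energies of all levels -/

variable {p : Type*} [Fintype p] [DecidableEq p]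

theorem SG_nonneg {X : Matrix p p ℝ} (hX : X.PosSemidef) {μ : ℝ} (hμ : 0 < μ) (J : ℕ) :
    0 ≤ SG μ J X :=
  sum_nonneg fun j _ => mul_nonneg (inv_nonneg.mpr (by positivity))
    (GX_nonneg' (smul_psd hX (by positivity)))

theorem SG_mono {X E : Matrix p p ℝ} (hX : X.PosSemidef) (hE : E.PosSemidef) {μ : ℝ}
    (hμ : 0 < μ) (J : ℕ) : SG μ J X ≤ SG μ J (X + E) := by
  refine sum_le_sum fun j _ => mul_le_mul_of_nonneg_left ?_ (inv_nonneg.mpr (by positivity))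
  have h4 : 0 ≤ μ / 4 ^ j := by positivity
  have h := GX_tangent (smul_psd hX h4) (smul_psd (hX.add hE) h4)
  have h2 := trace_mul_nonneg (phi_psd (smul_psd hX h4)) (smul_psd hE h4)
  have e : (μ / 4 ^ j) • (X + E) - (μ / 4 ^ j) • X = (μ / 4 ^ j) • E := by
    rw [smul_add]; abel
  rw [e] at h
  linarith

/-- the energy grows at most by the trace -/
theorem GX_add_le {X E : Matrix p p ℝ} (hX : X.PosSemidef) (hE : E.PosSemidef) :
    GX (X + E) ≤ GX X + E.trace := by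
  have h := GX_tangent (hX.add hE) hX
  have e : X - (X + E) = -E := by abel
  rw [e, Matrix.mul_neg, trace_neg] at h
  have h2 : (phi (X + E) * E).trace ≤ E.trace := by
    have h3 := trace_mul_nonneg (one_sub_phi_psd (hX.add hE)) hE
    rw [Matrix.sub_mul, Matrix.one_mul, trace_sub] at h3
    linarith
  linarith

theorem SG_add_le {X E : Matrix p p ℝ} (hX : X.PosSemidef) (hE : E.PosSemidef) {μ : ℝ}
    (hμ : 0 < μ) (J : ℕ) : SG μ J (X + E) ≤ SG μ J X + ((J : ℝ) + 1) * E.trace := by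
  have h : ∀ j ∈ range (J + 1), (μ / 4 ^ j)⁻¹ * GX ((μ / 4 ^ j) • (X + E))
      ≤ (μ / 4 ^ j)⁻¹ * GX ((μ / 4 ^ j) • X) + E.trace := by
    intro j _
    have h4 : 0 < μ / 4 ^ j := by positivity
    have h := GX_add_le (smul_psd hX h4.le) (smul_psd hE h4.le)
    rw [← smul_add, trace_smul, smul_eq_mul] at h
    have h2 := mul_le_mul_of_nonneg_left h (inv_nonneg.mpr h4.le)
    rwa [mul_add, inv_mul_cancel_left₀ h4.ne'] at h2
  have h2 := sum_le_sum h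
  rw [sum_add_distrib, sum_const, card_range, nsmul_eq_mul] at h2
  push_cast at h2
  exact h2

theorem SG_le_trace {X : Matrix p p ℝ} (hX : X.PosSemidef) {μ : ℝ} (hμ : 0 < μ) (J : ℕ) :
    SG μ J X ≤ ((J : ℝ) + 1) * X.trace := by
  have h : ∀ j ∈ range (J + 1), (μ / 4 ^ j)⁻¹ * GX ((μ / 4 ^ j) • X) ≤ X.trace := by
    intro j _
    have h4 : 0 < μ / 4 ^ j := by positivity
    have h := GX_le_trace (smul_psd hX h4.le)
    rw [trace_smul, smul_eq_mul] at h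
    have h2 := mul_le_mul_of_nonneg_left h (inv_nonneg.mpr h4.le)
    rwa [inv_mul_cancel_left₀ h4.ne'] at h2
  have h2 := sum_le_sum h
  rw [sum_const, card_range, nsmul_eq_mul] at h2
  push_cast at h2
  exact h2

theorem SD_nonneg {X₀ X₁ : Matrix p p ℝ} (h0 : X₀.PosSemidef) (h1 : X₁.PosSemidef) {μ : ℝ}
    (hμ : 0 < μ) (J : ℕ) : 0 ≤ SD μ J X₀ X₁ :=
  sum_nonneg fun j _ => mul_nonneg (inv_nonneg.mpr (by positivity))
    (delt_psd (smul_psd h0 (by positivity)) (smul_psd h1 (by positivity))).trace_nonneg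

/-- static split, all levels -/
theorem SG_row {X₀ X₁ : Matrix p p ℝ} (h0 : X₀.PosSemidef) (h1 : X₁.PosSemidef) {μ : ℝ}
    (hμ : 0 < μ) (J : ℕ) :
    SG μ J ((1 / 2 : ℝ) • (X₀ + X₁)) + (1 / 2) * SD μ J X₀ X₁
      ≤ (1 / 2) * (SG μ J X₀ + SG μ J X₁) := by
  unfold SG SD
  rw [mul_sum, ← sum_add_distrib, ← sum_add_distrib, mul_sum]
  refine sum_le_sum fun j _ => ?_
  have h4 : 0 < μ / 4 ^ j := by positivity
  have h := R.GX_row (smul_psd h0 h4.le) (smul_psd h1 h4.le)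
  have e : (μ / 4 ^ j) • ((1 / 2 : ℝ) • (X₀ + X₁))
      = (1 / 2 : ℝ) • ((μ / 4 ^ j) • X₀ + (μ / 4 ^ j) • X₁) := by module
  rw [e]
  have h2 := mul_le_mul_of_nonneg_left h (inv_nonneg.mpr h4.le)
  linarith

/-- energy, outer scale `L + p`, middle scale `q` -/
def SE (N L : ℕ) (R S : ℤ) (μ : ℝ) (J p q : ℕ) (F : ℤ → ℤ → ℝ) : ℝ :=
  (2 : ℝ) ^ (L + p) * 2 ^ q * ∑ m ∈ iv (N - q) S, ∑ n ∈ iv (N - p) R,
    SG μ J (Xg (L + p) q F n m)

/-- gains of the `x` split (children of scale `p`) -/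
def GXs (N L : ℕ) (R S : ℤ) (μ : ℝ) (J p q : ℕ) (F : ℤ → ℤ → ℝ) : ℝ :=
  (2 : ℝ) ^ (L + p) * 2 ^ q * ∑ m ∈ iv (N - q) S, ∑ n ∈ iv (N - (p + 1)) R,
    SD μ J (Xg (L + p) q F (2 * n) m) (Xg (L + p) q F (2 * n + 1) m)

/-- gains of the `y` split (children of scale `q`), outer Gram matrices -/
def GYs (N L : ℕ) (R S : ℤ) (μ : ℝ) (J p q : ℕ) (F : ℤ → ℤ → ℝ) : ℝ :=
  (2 : ℝ) ^ (L + p) * 2 ^ q * ∑ m ∈ iv (N - (q + 1)) S, ∑ n ∈ iv (N - p) R,
    SD μ J (Yo (L + p) q F n (2 * m)) (Yo (L + p) q F n (2 * m + 1))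

/-- raw square sum over the root -/
def sqL (N L : ℕ) (R S : ℤ) (F : ℤ → ℤ → ℝ) : ℝ :=
  ∑ y ∈ iv N S, ∑ x ∈ iv (L + N) R, F x y ^ 2

theorem SE_nonneg (N L : ℕ) (R S : ℤ) {μ : ℝ} (hμ : 0 < μ) (J p q : ℕ) (F : ℤ → ℤ → ℝ) :
    0 ≤ SE N L R S μ J p q F :=
  mul_nonneg (by positivity) (sum_nonneg fun _ _ => sum_nonneg fun _ _ =>
    SG_nonneg (Xg_psd ..) hμ J)

theorem GXs_nonneg (N L : ℕ) (R S : ℤ) {μ : ℝ} (hμ : 0 < μ) (J p q : ℕ) (F : ℤ → ℤ → ℝ) :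
    0 ≤ GXs N L R S μ J p q F :=
  mul_nonneg (by positivity) (sum_nonneg fun _ _ => sum_nonneg fun _ _ =>
    SD_nonneg (Xg_psd ..) (Xg_psd ..) hμ J)

theorem GYs_nonneg (N L : ℕ) (R S : ℤ) {μ : ℝ} (hμ : 0 < μ) (J p q : ℕ) (F : ℤ → ℤ → ℝ) :
    0 ≤ GYs N L R S μ J p q F :=
  mul_nonneg (by positivity) (sum_nonneg fun _ _ => sum_nonneg fun _ _ =>
    SD_nonneg (Yo_psd ..) (Yo_psd ..) hμ J)

/-- **`x` split**, static -/
theorem SE_x {N p : ℕ} (h : p < N) (L : ℕ) (R S : ℤ) {μ : ℝ} (hμ : 0 < μ) (J q : ℕ)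
    (F : ℤ → ℤ → ℝ) :
    SE N L R S μ J (p + 1) q F + GXs N L R S μ J p q F ≤ SE N L R S μ J p q F := by
  have e : N - p = (N - (p + 1)) + 1 := by omega
  unfold SE GXs
  rw [e]
  simp only [sum_iv_succ]
  rw [show (2 : ℝ) ^ (L + (p + 1)) * 2 ^ q = 2 ^ (L + p) * 2 ^ q * 2 by
    rw [← add_assoc, pow_succ]; ring, mul_assoc ((2 : ℝ) ^ (L + p) * 2 ^ q) 2, ← mul_add]
  refine mul_le_mul_of_nonneg_left ?_ (by positivity)
  rw [mul_sum, ← sum_add_distrib]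
  refine sum_le_sum fun m _ => ?_
  rw [mul_sum, ← sum_add_distrib]
  refine sum_le_sum fun n _ => ?_
  have h2 := SG_row (Xg_psd (L + p) q F (2 * n) m) (Xg_psd (L + p) q F (2 * n + 1) m) hμ J
  have e1 : Xg (L + (p + 1)) q F n m
      = (1 / 2 : ℝ) • (Xg (L + p) q F (2 * n) m + Xg (L + p) q F (2 * n + 1) m) :=
    Xg_row (L + p) q F n m
  rw [e1]
  linarith

/-- the energy is at most the square sum -/
theorem SE_end {N p q : ℕ} (hp : p ≤ N) (hq : q ≤ N) (L : ℕ) (R S : ℤ) {μ : ℝ} (hμ : 0 < μ)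
    (J : ℕ) (F : ℤ → ℤ → ℝ) : SE N L R S μ J p q F ≤ ((J : ℝ) + 1) * sqL N L R S F := by
  have h1 : ∀ n m, (2 : ℝ) ^ (L + p) * 2 ^ q * SG μ J (Xg (L + p) q F n m)
      ≤ ((J : ℝ) + 1) * ∑ y ∈ iv q m, ∑ x ∈ iv (L + p) n, F x y ^ 2 := by
    intro n m
    rw [← trace_Xg]
    have h2 := mul_le_mul_of_nonneg_left (SG_le_trace (Xg_psd (L + p) q F n m) hμ J)
      (show (0 : ℝ) ≤ 2 ^ (L + p) * 2 ^ q by positivity)
    linarith
  unfold SE sqL
  rw [mul_sum, ← sum_iv_iv hq S (fun y => ∑ x ∈ iv (L + N) R, F x y ^ 2), mul_sum]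
  refine sum_le_sum fun m _ => ?_
  rw [mul_sum]
  refine (sum_le_sum fun n _ => h1 n m).trans (le_of_eq ?_)
  rw [← mul_sum, sum_comm]
  congr 1
  refine sum_congr rfl fun y _ => ?_
  have h4 := sum_iv_iv (a := L + p) (N := L + N) (by omega) R (fun x => F x y ^ 2)
  have e : L + N - (L + p) = N - p := by omega
  rw [e] at h4
  exact h4

end

end Vale.Agent.P141.H435
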