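import Vale.Agent.P141.H435.OwnE
import Vale.Agent.P141.PL.H588.Split

/-!
# P141, line (A): own energy of a moving stack on the tree

`F q` is the stack at the scale `q` of `y`.  On a cell of scale `q + 1` of `y` the stack moves by
`1 + K`, `1 - K` on the two halves, `K` acting on the label digits of `x` at a fixed point; on the
dead squares (scale `L + q` in `x`, `q` in `y`) `F q` is arbitrary.  The sums of all gains of the
`x` splits and of the `y` splits along every diagonal are bounded.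
-/

namespace Vale.Agent.P141.H435

open Finset Matrix Vale.Agent.P075 Vale.Agent.P141.PL Vale.Agent.P141.PL.H588 Vale.Agent.P141.H505

noncomputable section

theorem psd_one_sub_of_trace {p : Type*} [Fintype p] [DecidableEq p] {X : Matrix p p ℝ}
    (hX : X.PosSemidef) (h : X.trace ≤ 1) : (1 - X).PosSemidef := by
  obtain ⟨B, hB, rfl⟩ := exists_sq hX
  have hs := psd_isSymm hB
  refine PosSemidef.of_dotProduct_mulVec_nonneg ?_ fun v => ?_
  · exact (isHermitian_one).sub (psd_sq hs).1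
  · have h1 : star v ⬝ᵥ (1 - B * B) *ᵥ v = v ⬝ᵥ v - (B *ᵥ v) ⬝ᵥ (B *ᵥ v) := by
      rw [star_trivial, Matrix.sub_mulVec, Matrix.one_mulVec, dotProduct_sub, ← Matrix.mulVec_mulVec,
        Matrix.dotProduct_mulVec, ← Matrix.mulVec_transpose, hs]
    rw [h1]
    have h2 : (B *ᵥ v) ⬝ᵥ (B *ᵥ v) ≤ (B * B).trace * (v ⬝ᵥ v) := by
      have e : (B * B).trace = ∑ i, ∑ j, B i j ^ 2 := by
        have : (B * B).trace = (B * Bᵀ).trace := by rw [hs]
        rw [this]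
        simp only [Matrix.trace, Matrix.diag_apply, Matrix.mul_apply, transpose_apply, pow_two]
      rw [e, sum_mul]
      simp only [dotProduct, mulVec]
      refine sum_le_sum fun i _ => ?_
      have := sum_mul_sq_le_sq_mul_sq univ (fun j => B i j) v
      simp only [← pow_two]
      exact this
    have h3 : 0 ≤ v ⬝ᵥ v := by
      simp only [dotProduct]
      exact sum_nonneg fun i _ => mul_self_nonneg _
    nlinarith

/-! ### the move -/

/-- sign of the half of scale `q` -/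
def sg (q : ℕ) (y : ℤ) : ℝ := if ix q y % 2 = 0 then 1 else -1

/-- the multiplier applied to the stack -/
def ap (L q : ℕ) (K : ℤ → ℤ → ℤ → ℝ) (F : ℤ → ℤ → ℝ) : ℤ → ℤ → ℝ := fun x y =>
  ∑ x' ∈ iv L (ix L x), K (ix (q + 1) y) x x' * F x' y

/-- transposed multiplier -/
def tp (K : ℤ → ℤ → ℤ → ℝ) : ℤ → ℤ → ℤ → ℝ := fun m x x' => K m x' x

/-- the moved stack -/
def mvF (L q : ℕ) (K : ℤ → ℤ → ℤ → ℝ) (F : ℤ → ℤ → ℝ) : ℤ → ℤ → ℝ := fun x y =>
  F x y + sg q y * ap L q K F x y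

/-- the multiplier acts on labels -/
def Blk (L : ℕ) (K : ℤ → ℤ → ℤ → ℝ) : Prop := ∀ m x x', ix L x ≠ ix L x' → K m x x' = 0

theorem Blk.tp {L : ℕ} {K : ℤ → ℤ → ℤ → ℝ} (h : Blk L K) : Blk L (tp K) :=
  fun m x x' hx => h m x' x (Ne.symm hx)

/-- the multiplier as a matrix -/
def Kh (a : ℕ) (K : ℤ → ℤ → ℤ → ℝ) (n m : ℤ) : Matrix (Ix a) (Ix a) ℝ := fun i i' =>
  K m (2 ^ a * n + val a i) (2 ^ a * n + val a i')

theorem Kh_tp (a : ℕ) (K : ℤ → ℤ → ℤ → ℝ) (n m : ℤ) : Kh a (tp K) n m = (Kh a K n m)ᵀ := rfl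

theorem pt_mem (a : ℕ) (n : ℤ) (i : Ix a) : 2 ^ a * n + (val a i : ℤ) ∈ iv a n := by
  have h := val_lt a i
  have h2 : (val a i : ℤ) < 2 ^ a := by exact_mod_cast h
  rw [iv, mem_Ico]
  constructor
  · linarith [Int.natCast_nonneg (val a i)]
  · linarith

theorem sum_blk {L p : ℕ} {n x : ℤ} (hx : x ∈ iv (L + p) n) (f : ℤ → ℝ)
    (hf : ∀ x', ix L x' ≠ ix L x → f x' = 0) :
    ∑ x' ∈ iv (L + p) n, f x' = ∑ x' ∈ iv L (ix L x), f x' := by
  symm
  refine sum_subset ?_ ?_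
  · intro x' hx'
    rw [mem_iv] at hx hx' ⊢
    rw [← ix_ix, hx', ix_ix, hx]
  · intro x' _ hx'
    refine hf x' ?_
    intro h
    exact hx' (mem_iv.mpr h)

theorem ix_child {q : ℕ} {m c y : ℤ} (hc : c = 0 ∨ c = 1) (hy : y ∈ iv q (2 * m + c)) :
    ix (q + 1) y = m := by
  rw [mem_iv] at hy
  rw [← ix_ix, hy, ix, pow_one]
  omega

theorem smp_ap {L p q : ℕ} {K : ℤ → ℤ → ℤ → ℝ} (hK : Blk L K) (F : ℤ → ℤ → ℝ) (n m : ℤ) {c : ℤ}
    (hc : c = 0 ∨ c = 1) :
    smp (L + p) q (ap L q K F) (2 ^ (L + p) * n) (2 ^ q * (2 * m + c))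
      = Kh (L + p) K n m * smp (L + p) q F (2 ^ (L + p) * n) (2 ^ q * (2 * m + c)) := by
  ext i j
  have hx := pt_mem (L + p) n i
  have hy := pt_mem q (2 * m + c) j
  rw [Matrix.mul_apply, smp, ap, ix_child hc hy]
  rw [← sum_blk hx (fun x' => K m (2 ^ (L + p) * n + (val (L + p) i : ℤ)) x' *
    F x' (2 ^ q * (2 * m + c) + (val q j : ℤ))) (fun x' h => by
      rw [hK _ _ _ (Ne.symm h), zero_mul])]
  rw [sum_iv]
  rfl

theorem smp_mv {L p q : ℕ} {K : ℤ → ℤ → ℤ → ℝ} (hK : Blk L K) (F : ℤ → ℤ → ℝ) (n m : ℤ) {c : ℤ}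
    (hc : c = 0 ∨ c = 1) (s : ℝ) (hs : s = if c = 0 then 1 else -1) :
    smp (L + p) q (mvF L q K F) (2 ^ (L + p) * n) (2 ^ q * (2 * m + c))
      = (1 + s • Kh (L + p) K n m) * smp (L + p) q F (2 ^ (L + p) * n) (2 ^ q * (2 * m + c)) := by
  rw [Matrix.add_mul, Matrix.one_mul, Matrix.smul_mul, ← smp_ap hK F n m hc]
  ext i j
  have hy := pt_mem q (2 * m + c) j
  have h1 : sg q (2 ^ q * (2 * m + c) + (val q j : ℤ)) = s := by
    rw [mem_iv] at hy
    rw [sg, hy, hs]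
    rcases hc with rfl | rfl
    · simp
    · have : (2 * m + 1) % 2 = 1 := by omega
      simp [this]
  rw [Matrix.add_apply, Matrix.smul_apply, smul_eq_mul]
  simp only [smp, mvF, h1]

theorem Yo_mv {L p q : ℕ} {K : ℤ → ℤ → ℤ → ℝ} (hK : Blk L K) (F : ℤ → ℤ → ℝ) (n m : ℤ) {c : ℤ}
    (hc : c = 0 ∨ c = 1) (s : ℝ) (hs : s = if c = 0 then 1 else -1) :
    Yo (L + p) q (mvF L q K F) n (2 * m + c)
      = (1 + s • Kh (L + p) K n m) * Yo (L + p) q F n (2 * m + c)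
        * (1 + s • Kh (L + p) K n m)ᵀ := by
  rw [Yo_eq, Yo_eq, smp_mv hK F n m hc s hs, Matrix.mul_smul, Matrix.smul_mul, transpose_mul]
  congr 1
  simp only [Matrix.mul_assoc]

theorem quad_ap {L p q : ℕ} {K : ℤ → ℤ → ℤ → ℝ} (hK : Blk L K) (F : ℤ → ℤ → ℝ) (n m : ℤ) {c : ℤ}
    (hc : c = 0 ∨ c = 1) :
    (Kh (L + p) K n m * Yo (L + p) q F n (2 * m + c) * (Kh (L + p) K n m)ᵀ).trace
      = (Xg (L + p) q (ap L q K F) n (2 * m + c)).trace := by
  have e : (Xg (L + p) q (ap L q K F) n (2 * m + c)).trace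
      = (Yo (L + p) q (ap L q K F) n (2 * m + c)).trace := by
    rw [Yo_eq, Xg, trace_smul, trace_smul, trace_mul_comm]
  rw [e, Yo_eq, Yo_eq, smp_ap hK F n m hc, Matrix.mul_smul, Matrix.smul_mul, transpose_mul]
  congr 2
  simp only [Matrix.mul_assoc]

theorem sqL_eq {N p q : ℕ} (hp : p ≤ N) (hq : q ≤ N) (L : ℕ) (R S : ℤ) (F : ℤ → ℤ → ℝ) :
    (2 : ℝ) ^ (L + p) * 2 ^ q * ∑ m ∈ iv (N - q) S, ∑ n ∈ iv (N - p) R,
      (Xg (L + p) q F n m).trace = sqL N L R S F := by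
  unfold sqL
  rw [mul_sum, ← sum_iv_iv hq S (fun y => ∑ x ∈ iv (L + N) R, F x y ^ 2)]
  refine sum_congr rfl fun m _ => ?_
  rw [mul_sum]
  simp only [trace_Xg]
  rw [sum_comm]
  refine sum_congr rfl fun y _ => ?_
  have h4 := sum_iv_iv (a := L + p) (N := L + N) (by omega) R (fun x => F x y ^ 2)
  have e : L + N - (L + p) = N - p := by omega
  rw [e] at h4
  exact h4

/-- **`y` split with the move.** -/
theorem SE_y {N p q : ℕ} (hp : p ≤ N) (hq : q < N) (L : ℕ) (R S : ℤ) {μ : ℝ} (hμ : 0 < μ) (J : ℕ)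
    {K : ℤ → ℤ → ℤ → ℝ} (hK : Blk L K) (F : ℤ → ℤ → ℝ)
    (hc : ∀ n ∈ iv (N - p) R, ∀ m ∈ iv (N - q) S,
      μ / 4 ^ J * (Xg (L + p) q F n m).trace ≤ 1) :
    SE N L R S μ J p (q + 1) F + (1 / 2) * GYs N L R S μ J p q F
      ≤ SE N L R S μ J p q (mvF L q K F)
        + 256 * ((J : ℝ) + 1) ^ 3 * (sqL N L R S (ap L q (tp K) F) + sqL N L R S (ap L q K F)) := by
  have e : N - q = (N - (q + 1)) + 1 := by omega
  have hcap : ∀ n ∈ iv (N - p) R, ∀ m ∈ iv (N - q) S,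
      (1 - (μ / 4 ^ J) • Yo (L + p) q F n m).PosSemidef := by
    intro n hn m hm
    refine psd_one_sub_of_trace (smul_psd (Yo_psd ..) (by positivity)) ?_
    have h1 : (Yo (L + p) q F n m).trace = (Xg (L + p) q F n m).trace := by
      rw [Yo_eq, Xg, trace_smul, trace_smul, trace_mul_comm]
    rw [trace_smul, smul_eq_mul, h1]
    exact hc n hn m hm
  -- one cell
  have hcell : ∀ m ∈ iv (N - (q + 1)) S, ∀ n ∈ iv (N - p) R,
      2 * SG μ J (Xg (L + p) (q + 1) F n m)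
        + (1 / 2) * SD μ J (Yo (L + p) q F n (2 * m)) (Yo (L + p) q F n (2 * m + 1))
      ≤ (SG μ J (Xg (L + p) q (mvF L q K F) n (2 * m))
          + SG μ J (Xg (L + p) q (mvF L q K F) n (2 * m + 1)))
        + 256 * ((J : ℝ) + 1) ^ 3 * ((Xg (L + p) q (ap L q (tp K) F) n (2 * m)).trace
          + (Xg (L + p) q (ap L q K F) n (2 * m + 1)).trace) := by
    intro m hm n hn
    have m0 : 2 * m ∈ iv (N - q) S := by rw [e]; exact (mem_iv_double ..).mpr hm
    have m1 : 2 * m + 1 ∈ iv (N - q) S := by rw [e]; exact (mem_iv_double' ..).mpr hm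
    have h := SG_outer (Yo_psd (L + p) q F n (2 * m)) (Yo_psd (L + p) q F n (2 * m + 1)) hμ J
      (hcap n hn _ m0) (hcap n hn _ m1) (Kh (L + p) K n m)
    have z0 := Yo_mv hK F n m (p := p) (q := q) (c := 0) (Or.inl rfl) 1 (by simp)
    have z1 := Yo_mv hK F n m (p := p) (q := q) (c := 1) (Or.inr rfl) (-1) (by simp)
    have t0 := quad_ap hK.tp F n m (p := p) (q := q) (c := 0) (Or.inl rfl)
    have t1 := quad_ap hK F n m (p := p) (q := q) (c := 1) (Or.inr rfl)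
    rw [Kh_tp, transpose_transpose] at t0
    simp only [add_zero, one_smul, neg_smul, ← sub_eq_add_neg] at z0 z1 t0 t1
    rw [SG_Yo, SG_Yo, SG_Yo, Yo_split, z0, z1, ← t0, ← t1]
    linarith
  have hsum := sum_le_sum fun m hm => sum_le_sum fun n hn => hcell m hm n hn
  simp only [sum_add_distrib, ← mul_sum] at hsum
  have hw : (0 : ℝ) < 2 ^ (L + p) * 2 ^ q := by positivity
  have h5 := mul_le_mul_of_nonneg_left hsum hw.le
  -- the errors
  have n0 : ∀ (G : ℤ → ℤ → ℝ) n m, 0 ≤ (Xg (L + p) q G n m).trace := fun G n m =>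
    (Xg_psd ..).trace_nonneg
  have q1 : ∀ G : ℤ → ℤ → ℝ, (2 : ℝ) ^ (L + p) * 2 ^ q * (∑ m ∈ iv (N - (q + 1)) S,
      ∑ n ∈ iv (N - p) R, (Xg (L + p) q G n (2 * m)).trace
      + ∑ m ∈ iv (N - (q + 1)) S, ∑ n ∈ iv (N - p) R, (Xg (L + p) q G n (2 * m + 1)).trace)
      = sqL N L R S G := by
    intro G
    rw [← sqL_eq hp hq.le L R S G, e, sum_iv_succ, sum_add_distrib]
  have a1 := q1 (ap L q (tp K) F)
  have a2 := q1 (ap L q K F)
  have b1 : 0 ≤ (2 : ℝ) ^ (L + p) * 2 ^ q * ∑ m ∈ iv (N - (q + 1)) S, ∑ n ∈ iv (N - p) R,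
      (Xg (L + p) q (ap L q (tp K) F) n (2 * m + 1)).trace :=
    mul_nonneg hw.le (sum_nonneg fun _ _ => sum_nonneg fun _ _ => n0 _ _ _)
  have b2 : 0 ≤ (2 : ℝ) ^ (L + p) * 2 ^ q * ∑ m ∈ iv (N - (q + 1)) S, ∑ n ∈ iv (N - p) R,
      (Xg (L + p) q (ap L q K F) n (2 * m)).trace :=
    mul_nonneg hw.le (sum_nonneg fun _ _ => sum_nonneg fun _ _ => n0 _ _ _)
  have l1 : SE N L R S μ J p (q + 1) F = (2 : ℝ) ^ (L + p) * 2 ^ q *
      (2 * ∑ m ∈ iv (N - (q + 1)) S, ∑ n ∈ iv (N - p) R, SG μ J (Xg (L + p) (q + 1) F n m)) := by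
    rw [SE, pow_succ]; ring
  have l2 : SE N L R S μ J p q (mvF L q K F) = (2 : ℝ) ^ (L + p) * 2 ^ q *
      (∑ m ∈ iv (N - (q + 1)) S, ∑ n ∈ iv (N - p) R, SG μ J (Xg (L + p) q (mvF L q K F) n (2 * m))
      + ∑ m ∈ iv (N - (q + 1)) S, ∑ n ∈ iv (N - p) R,
        SG μ J (Xg (L + p) q (mvF L q K F) n (2 * m + 1))) := by
    rw [SE, e, sum_iv_succ, sum_add_distrib]
  have hJ : (0 : ℝ) ≤ 256 * ((J : ℝ) + 1) ^ 3 := by positivity
  rw [l1, l2, GYs]
  rw [mul_add ((2 : ℝ) ^ (L + p) * 2 ^ q)] at h5 a1 a2 ⊢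
  have c1 := mul_nonneg hJ b1
  have c2 := mul_nonneg hJ b2
  rw [← a1, ← a2]
  linarith

/-! ### dead squares -/

/-- the part of `F` outside the dead squares -/
def al (L q : ℕ) (D : ℤ → ℤ → Prop) (F : ℤ → ℤ → ℝ) : ℤ → ℤ → ℝ := by
  classical
  exact fun x y => if D (ix (L + q) x) (ix q y) then 0 else F x y

/-- the part of `F` on the dead squares -/
def dd (L q : ℕ) (D : ℤ → ℤ → Prop) (F : ℤ → ℤ → ℝ) : ℤ → ℤ → ℝ := by
  classical
  exact fun x y => if D (ix (L + q) x) (ix q y) then F x y else 0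

theorem Xg_al (L q : ℕ) (D : ℤ → ℤ → Prop) (F : ℤ → ℤ → ℝ) (a : ℕ) (n m : ℤ) :
    Xg a q F n m = Xg a q (al L q D F) n m + Xg a q (dd L q D F) n m := by
  classical
  ext j j'
  rw [Matrix.add_apply, Xg_apply, Xg_apply, Xg_apply, ← mul_add, ← sum_add_distrib]
  congr 1
  refine sum_congr rfl fun i _ => ?_
  have h1 := mem_iv.mp (pt_mem q m j)
  have h2 := mem_iv.mp (pt_mem q m j')
  simp only [al, dd, h1, h2]
  split_ifs <;> ring

theorem Xg_congr {a q : ℕ} {n m : ℤ} {F G : ℤ → ℤ → ℝ}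
    (h : ∀ x ∈ iv a n, ∀ y ∈ iv q m, F x y = G x y) : Xg a q F n m = Xg a q G n m := by
  ext j j'
  rw [Xg_apply, Xg_apply]
  congr 1
  refine sum_congr rfl fun i _ => ?_
  rw [h _ (pt_mem a n i) _ (pt_mem q m j), h _ (pt_mem a n i) _ (pt_mem q m j')]

theorem mem_root {L N p : ℕ} (hp : p ≤ N) {R n x : ℤ} (hn : n ∈ iv (N - p) R)
    (hx : x ∈ iv (L + p) n) : x ∈ iv (L + N) R := by
  rw [mem_iv] at hn hx ⊢
  have h := ix_ix (L + p) (N - p) x
  rw [hx, hn] at h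
  rw [h]
  congr 1
  omega

theorem mem_root' {N q : ℕ} (hq : q ≤ N) {S m y : ℤ} (hm : m ∈ iv (N - q) S)
    (hy : y ∈ iv q m) : y ∈ iv N S := by
  have h := mem_root (L := 0) hq hm (by rwa [Nat.zero_add])
  rwa [Nat.zero_add] at h

/-- **Change on the dead squares.** -/
theorem SE_dead {N p q : ℕ} (hp : p ≤ N) (hq : q ≤ N) (L : ℕ) (R S : ℤ) {μ : ℝ} (hμ : 0 < μ)
    (J : ℕ) (D : ℤ → ℤ → Prop) {F G : ℤ → ℤ → ℝ}
    (h : ∀ x ∈ iv (L + N) R, ∀ y ∈ iv N S, ¬ D (ix (L + q) x) (ix q y) → G x y = F x y) :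
    SE N L R S μ J p q F
      ≤ SE N L R S μ J p q G + ((J : ℝ) + 1) * sqL N L R S (dd L q D F) := by
  classical
  rw [← sqL_eq hp hq L R S (dd L q D F)]
  unfold SE
  rw [mul_left_comm, ← mul_add]
  refine mul_le_mul_of_nonneg_left ?_ (by positivity)
  rw [mul_sum, ← sum_add_distrib]
  refine sum_le_sum fun m hm => ?_
  rw [mul_sum, ← sum_add_distrib]
  refine sum_le_sum fun n hn => ?_
  have e1 : Xg (L + p) q (al L q D F) n m = Xg (L + p) q (al L q D G) n m := by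
    refine Xg_congr fun x hx y hy => ?_
    have hx' := mem_root hp hn hx
    have hy' := mem_root' hq hm hy
    have h1 := h x hx' y hy'
    simp only [al]
    split_ifs with hD
    · rfl
    · exact (h1 hD).symm
  have a1 := SG_add_le (Xg_psd (L + p) q (al L q D F) n m) (Xg_psd (L + p) q (dd L q D F) n m) hμ J
  have a2 := SG_mono (Xg_psd (L + p) q (al L q D G) n m) (Xg_psd (L + p) q (dd L q D G) n m) hμ J
  rw [← Xg_al] at a1 a2
  rw [e1] at a1
  linarith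

/-! ### the tree -/

/-- a moving stack -/
structure Stk (N L : ℕ) (R S : ℤ) (F : ℕ → ℤ → ℤ → ℝ) (K : ℕ → ℤ → ℤ → ℤ → ℝ)
    (D : ℕ → ℤ → ℤ → Prop) : Prop where
  blk : ∀ q, Blk L (K q)
  mv : ∀ q < N, ∀ x ∈ iv (L + N) R, ∀ y ∈ iv N S, ¬ D q (ix (L + q) x) (ix q y) →
    F q x y = mvF L q (K q) (F (q + 1)) x y

/-- error of the time `q` -/
def er (N L : ℕ) (R S : ℤ) (J : ℕ) (F : ℕ → ℤ → ℤ → ℝ) (K : ℕ → ℤ → ℤ → ℤ → ℝ)
    (D : ℕ → ℤ → ℤ → Prop) (q : ℕ) : ℝ :=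
  256 * ((J : ℝ) + 1) ^ 3 * (sqL N L R S (ap L q (tp (K q)) (F (q + 1)))
    + sqL N L R S (ap L q (K q) (F (q + 1))))
    + ((J : ℝ) + 1) * sqL N L R S (dd L q (D q) (mvF L q (K q) (F (q + 1))))

theorem sqL_nonneg (N L : ℕ) (R S : ℤ) (F : ℤ → ℤ → ℝ) : 0 ≤ sqL N L R S F :=
  sum_nonneg fun _ _ => sum_nonneg fun _ _ => sq_nonneg _

theorem er_nonneg (N L : ℕ) (R S : ℤ) (J : ℕ) (F : ℕ → ℤ → ℤ → ℝ) (K : ℕ → ℤ → ℤ → ℤ → ℝ)
    (D : ℕ → ℤ → ℤ → Prop) (q : ℕ) : 0 ≤ er N L R S J F K D q := by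
  have h1 := sqL_nonneg N L R S (ap L q (tp (K q)) (F (q + 1)))
  have h2 := sqL_nonneg N L R S (ap L q (K q) (F (q + 1)))
  have h3 := sqL_nonneg N L R S (dd L q (D q) (mvF L q (K q) (F (q + 1))))
  unfold er
  positivity

variable {N L J : ℕ} {R S : ℤ} {μ : ℝ} {F : ℕ → ℤ → ℤ → ℝ} {K : ℕ → ℤ → ℤ → ℤ → ℝ}
  {D : ℕ → ℤ → ℤ → Prop}

/-- **One `y` step of the stack**, any outer scale. -/
theorem Stk.step (h : Stk N L R S F K D) (hμ : 0 < μ) {p q : ℕ} (hp : p ≤ N) (hq : q < N)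
    (hc : ∀ n ∈ iv (N - p) R, ∀ m ∈ iv (N - q) S,
      μ / 4 ^ J * (Xg (L + p) q (F (q + 1)) n m).trace ≤ 1) :
    SE N L R S μ J p (q + 1) (F (q + 1)) + (1 / 2) * GYs N L R S μ J p q (F (q + 1))
      ≤ SE N L R S μ J p q (F q) + er N L R S J F K D q := by
  have h1 := SE_y hp hq L R S hμ J (h.blk q) (F (q + 1)) hc
  have h2 := SE_dead (F := mvF L q (K q) (F (q + 1))) (G := F q) hp hq.le L R S hμ J (D q)
    (fun x hx y hy hd => h.mv q hq x hx y hy hd)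
  unfold er
  linarith

/-- **Diagonal `p = q + r`** (the middle variable `y` is the hub). -/
theorem Stk.diag (h : Stk N L R S F K D) (hμ : 0 < μ) {r : ℕ} (hr : r ≤ N)
    (hc : ∀ q < N, ∀ p, q < p → p ≤ N → ∀ n ∈ iv (N - p) R, ∀ m ∈ iv (N - q) S,
      μ / 4 ^ J * (Xg (L + p) q (F (q + 1)) n m).trace ≤ 1) :
    ∑ q ∈ range (N - r), ((1 / 2) * GYs N L R S μ J (q + 1 + r) q (F (q + 1))
        + GXs N L R S μ J (q + r) q (F q))
      ≤ ((J : ℝ) + 1) * sqL N L R S (F 0) + ∑ q ∈ range N, er N L R S J F K D q := by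
  have key : ∀ M, M ≤ N - r → SE N L R S μ J (M + r) M (F M)
      + ∑ q ∈ range M, ((1 / 2) * GYs N L R S μ J (q + 1 + r) q (F (q + 1))
        + GXs N L R S μ J (q + r) q (F q))
      ≤ SE N L R S μ J r 0 (F 0) + ∑ q ∈ range M, er N L R S J F K D q := by
    intro M
    induction M with
    | zero => intro _; simp
    | succ M ih =>
      intro hM
      have h1 := ih (by omega)
      have h2 := h.step hμ (p := M + 1 + r) (q := M) (by omega) (by omega)
        (hc M (by omega) (M + 1 + r) (by omega) (by omega))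
      have h3 := SE_x (N := N) (p := M + r) (by omega) L R S hμ J M (F M)
      have e : M + r + 1 = M + 1 + r := by omega
      rw [e] at h3
      rw [sum_range_succ, sum_range_succ]
      linarith
  have h1 := key (N - r) le_rfl
  have h2 := SE_nonneg N L R S hμ J (N - r + r) (N - r) (F (N - r))
  have h3 := SE_end (p := r) (q := 0) hr (Nat.zero_le N) L R S hμ J (F 0)
  have h4 : ∑ q ∈ range (N - r), er N L R S J F K D q ≤ ∑ q ∈ range N, er N L R S J F K D q :=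
    sum_le_sum_of_subset_of_nonneg (range_mono (Nat.sub_le N r))
      fun q _ _ => er_nonneg N L R S J F K D q
  linarith

/-- **Diagonal `q = p + r`** (the variable `x` is the hub, the stack moves in the outer split). -/
theorem Stk.diag' (h : Stk N L R S F K D) (hμ : 0 < μ) {r : ℕ} (hr : r ≤ N)
    (hc : ∀ q < N, ∀ p, p ≤ q → ∀ n ∈ iv (N - p) R, ∀ m ∈ iv (N - q) S,
      μ / 4 ^ J * (Xg (L + p) q (F (q + 1)) n m).trace ≤ 1) :
    ∑ p ∈ range (N - r), (GXs N L R S μ J p (p + 1 + r) (F (p + 1 + r))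
        + (1 / 2) * GYs N L R S μ J p (p + r) (F (p + 1 + r)))
      ≤ ((J : ℝ) + 1) * sqL N L R S (F r) + ∑ q ∈ range N, er N L R S J F K D q := by
  have key : ∀ M, M ≤ N - r → SE N L R S μ J M (M + r) (F (M + r))
      + ∑ p ∈ range M, (GXs N L R S μ J p (p + 1 + r) (F (p + 1 + r))
        + (1 / 2) * GYs N L R S μ J p (p + r) (F (p + 1 + r)))
      ≤ SE N L R S μ J 0 r (F r) + ∑ p ∈ range M, er N L R S J F K D (p + r) := by
    intro M
    induction M with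
    | zero => intro _; simp
    | succ M ih =>
      intro hM
      have h1 := ih (by omega)
      have e : M + r + 1 = M + 1 + r := by omega
      have h2 := h.step hμ (p := M) (q := M + r) (by omega) (by omega)
        (hc (M + r) (by omega) M (by omega))
      have h3 := SE_x (N := N) (p := M) (by omega) L R S hμ J (M + 1 + r) (F (M + 1 + r))
      rw [e] at h2
      rw [sum_range_succ, sum_range_succ]
      linarith
  have h1 := key (N - r) le_rfl
  have h2 := SE_nonneg N L R S hμ J (N - r) (N - r + r) (F (N - r + r))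
  have h3 := SE_end (p := 0) (q := r) (Nat.zero_le N) hr L R S hμ J (F r)
  have h4 : ∑ p ∈ range (N - r), er N L R S J F K D (p + r) ≤ ∑ q ∈ range N, er N L R S J F K D q := by
    have e1 : ∑ p ∈ range (N - r), er N L R S J F K D (p + r)
        = ∑ q ∈ (range (N - r)).image (fun p => p + r), er N L R S J F K D q := by
      rw [sum_image]
      intro a _ b _ hab
      simpa using hab
    rw [e1]
    refine sum_le_sum_of_subset_of_nonneg ?_ fun q _ _ => er_nonneg N L R S J F K D q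
    intro q hq
    obtain ⟨p, hp, rfl⟩ := mem_image.mp hq
    rw [mem_range] at hp ⊢
    omega
  linarith

/-- the error in raw numbers: multiplier against the stack, and the mass of the dead squares -/
theorem er_le (N L : ℕ) (R S : ℤ) (J : ℕ) (F : ℕ → ℤ → ℤ → ℝ) (K : ℕ → ℤ → ℤ → ℤ → ℝ)
    (D : ℕ → ℤ → ℤ → Prop) (q : ℕ) :
    er N L R S J F K D q
      ≤ 258 * ((J : ℝ) + 1) ^ 3 * (sqL N L R S (ap L q (tp (K q)) (F (q + 1)))
          + sqL N L R S (ap L q (K q) (F (q + 1))))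
        + 2 * ((J : ℝ) + 1) * sqL N L R S (dd L q (D q) (F (q + 1))) := by
  classical
  have h1 := sqL_nonneg N L R S (ap L q (tp (K q)) (F (q + 1)))
  have h2 := sqL_nonneg N L R S (ap L q (K q) (F (q + 1)))
  have h3 : sqL N L R S (dd L q (D q) (mvF L q (K q) (F (q + 1))))
      ≤ 2 * sqL N L R S (dd L q (D q) (F (q + 1))) + 2 * sqL N L R S (ap L q (K q) (F (q + 1))) := by
    unfold sqL
    simp only [mul_sum]
    rw [← sum_add_distrib]
    refine sum_le_sum fun y _ => ?_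
    rw [← sum_add_distrib]
    refine sum_le_sum fun x _ => ?_
    have hs : sg q y ^ 2 = 1 := by
      unfold sg
      split_ifs <;> norm_num
    simp only [dd, mvF]
    split_ifs
    · have h4 := sq_nonneg (F (q + 1) x y - sg q y * ap L q (K q) (F (q + 1)) x y)
      have h5 : (sg q y * ap L q (K q) (F (q + 1)) x y) ^ 2 = ap L q (K q) (F (q + 1)) x y ^ 2 := by
        rw [mul_pow, hs, one_mul]
      nlinarith
    · have h4 := sq_nonneg (ap L q (K q) (F (q + 1)) x y)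
      norm_num
      positivity
  have hJ : (0 : ℝ) ≤ (J : ℝ) := Nat.cast_nonneg J
  have h4 : ((J : ℝ) + 1) ≤ ((J : ℝ) + 1) ^ 3 := by
    have : (1 : ℝ) ≤ ((J : ℝ) + 1) ^ 2 := by nlinarith
    nlinarith
  have h5 := mul_le_mul_of_nonneg_right h4 h2
  have h6 := mul_le_mul_of_nonneg_left h3 (show (0 : ℝ) ≤ (J : ℝ) + 1 by linarith)
  have h7 : (0 : ℝ) ≤ ((J : ℝ) + 1) ^ 3 * sqL N L R S (ap L q (tp (K q)) (F (q + 1))) := by
    positivity
  unfold er
  nlinarith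

/-- one level of the row defects -/
theorem SD_level {p : Type*} [Fintype p] [DecidableEq p] {X₀ X₁ : Matrix p p ℝ}
    (h0 : X₀.PosSemidef) (h1 : X₁.PosSemidef) (hμ : 0 < μ) {j : ℕ} (hj : j ≤ J) :
    (μ / 4 ^ j)⁻¹ * (delt ((μ / 4 ^ j) • X₀) ((μ / 4 ^ j) • X₁)).trace ≤ SD μ J X₀ X₁ := by
  unfold SD
  exact single_le_sum (f := fun j => (μ / 4 ^ j)⁻¹
    * (delt ((μ / 4 ^ j) • X₀) ((μ / 4 ^ j) • X₁)).trace)
    (fun j _ => mul_nonneg (inv_nonneg.mpr (by positivity))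
      (delt_psd (smul_psd h0 (by positivity)) (smul_psd h1 (by positivity))).trace_nonneg)
    (mem_range.mpr (by omega))

end

end Vale.Agent.P141.H435
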